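import Vale.Agent.P154.Gen.Bern

/-!
# P154: the polynomial `qG` behind the invariance inequality, as a polynomial in `al`, `be`
(file produced by a script; the coefficients are exact rationals)
-/

namespace Vale.Agent.P154


noncomputable def qG00 (x y : ℝ) : ℝ :=
    (18/5) + (-11/5) * y + (-11/5) * x + (-29/15) * x * y

noncomputable def qG01 (x y : ℝ) : ℝ :=
    (-48/5) + (66/5) * y + (-16/5) * y ^ 2 + (39/5) * x + (-11/5) * x * y + (-8/3) * x * y ^ 2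

noncomputable def qG02 (x y : ℝ) : ℝ :=
    0

noncomputable def qG03 (x y : ℝ) : ℝ :=
    0

noncomputable def qG10 (x y : ℝ) : ℝ :=
    (-48/5) + (39/5) * y + (66/5) * x + (-11/5) * x * y + (-16/5) * x ^ 2 + (-8/3) * x ^ 2 * y

noncomputable def qG11 (x y : ℝ) : ℝ :=
    (96/5) + (-177/5) * y + (48/5) * y ^ 2 + (-177/5) * x + 44 * x * y + (-6/5) * x * y ^ 2 +
    (48/5) * x ^ 2 + (-6/5) * x ^ 2 * y + (-286/15) * x ^ 2 * y ^ 2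

noncomputable def qG12 (x y : ℝ) : ℝ :=
    (198/5) + (-306/5) * y + (96/5) * y ^ 2 + (-189/5) * x + (69/5) * x * y + (164/5) * x * y ^ 2 +
    (-64/5) * x * y ^ 3 + (42/5) * x ^ 2 + (126/5) * x ^ 2 * y + (-28) * x ^ 2 * y ^ 2 +
    (92/15) * x ^ 2 * y ^ 3

noncomputable def qG13 (x y : ℝ) : ℝ :=
    0

noncomputable def qG20 (x y : ℝ) : ℝ :=
    0

noncomputable def qG21 (x y : ℝ) : ℝ :=
    (198/5) + (-189/5) * y + (42/5) * y ^ 2 + (-306/5) * x + (69/5) * x * y + (126/5) * x * y ^ 2 +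
    (96/5) * x ^ 2 + (164/5) * x ^ 2 * y + (-28) * x ^ 2 * y ^ 2 + (-64/5) * x ^ 3 * y +
    (92/15) * x ^ 3 * y ^ 2

noncomputable def qG22 (x y : ℝ) : ℝ :=
    (-120) + (954/5) * y + (-288/5) * y ^ 2 + (954/5) * x + (-921/5) * x * y +
    (-348/5) * x * y ^ 2 + (192/5) * x * y ^ 3 + (-288/5) * x ^ 2 + (-348/5) * x ^ 2 * y +
    (876/5) * x ^ 2 * y ^ 2 + (-204/5) * x ^ 2 * y ^ 3 + (192/5) * x ^ 3 * y +
    (-204/5) * x ^ 3 * y ^ 2 + (32/15) * x ^ 3 * y ^ 3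

noncomputable def qG23 (x y : ℝ) : ℝ :=
    (-324/5) + (432/5) * y + (-144/5) * y ^ 2 + (216/5) * x + (144/5) * x * y + (-96) * x * y ^ 2 +
    (192/5) * x * y ^ 3 + (-288/5) * x ^ 2 * y + 48 * x ^ 2 * y ^ 2 + (64/5) * x ^ 2 * y ^ 3 +
    (-64/5) * x ^ 2 * y ^ 4 + (96/5) * x ^ 3 * y ^ 2 + (-128/5) * x ^ 3 * y ^ 3 +
    (128/15) * x ^ 3 * y ^ 4

noncomputable def qG30 (x y : ℝ) : ℝ :=
    0

noncomputable def qG31 (x y : ℝ) : ℝ :=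
    0

noncomputable def qG32 (x y : ℝ) : ℝ :=
    (-324/5) + (216/5) * y + (432/5) * x + (144/5) * x * y + (-288/5) * x * y ^ 2 +
    (-144/5) * x ^ 2 + (-96) * x ^ 2 * y + 48 * x ^ 2 * y ^ 2 + (96/5) * x ^ 2 * y ^ 3 +
    (192/5) * x ^ 3 * y + (64/5) * x ^ 3 * y ^ 2 + (-128/5) * x ^ 3 * y ^ 3 +
    (-64/5) * x ^ 4 * y ^ 2 + (128/15) * x ^ 4 * y ^ 3

noncomputable def qG33 (x y : ℝ) : ℝ :=
    (972/5) + (-1296/5) * y + (432/5) * y ^ 2 + (-1296/5) * x + (432/5) * x * y +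
    (1152/5) * x * y ^ 2 + (-576/5) * x * y ^ 3 + (432/5) * x ^ 2 + (1152/5) * x ^ 2 * y +
    (-336) * x ^ 2 * y ^ 2 + (192/5) * x ^ 2 * y ^ 3 + (192/5) * x ^ 2 * y ^ 4 +
    (-576/5) * x ^ 3 * y + (192/5) * x ^ 3 * y ^ 2 + (512/5) * x ^ 3 * y ^ 3 +
    (-256/5) * x ^ 3 * y ^ 4 + (192/5) * x ^ 4 * y ^ 2 + (-256/5) * x ^ 4 * y ^ 3 +
    (256/15) * x ^ 4 * y ^ 4

noncomputable def qG (al x be y : ℝ) : ℝ :=
    qG00 x y + qG01 x y * be + qG02 x y * be ^ 2 + qG03 x y * be ^ 3 + qG10 x y * al +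
    qG11 x y * al * be + qG12 x y * al * be ^ 2 + qG13 x y * al * be ^ 3 + qG20 x y * al ^ 2 +
    qG21 x y * al ^ 2 * be + qG22 x y * al ^ 2 * be ^ 2 + qG23 x y * al ^ 2 * be ^ 3 +
    qG30 x y * al ^ 3 + qG31 x y * al ^ 3 * be + qG32 x y * al ^ 3 * be ^ 2 +
    qG33 x y * al ^ 3 * be ^ 3

end Vale.Agent.P154
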